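import Vale.Agent.P038.H87.Transport

/-!
# The pure inequality
-/

namespace Vale.Agent.P038.H87

open Finset

theorem threshold {ι κ : Type*} (I : Finset ι) (J : Finset κ) (p : ι → ℝ) (q : κ → ℝ)
    (hp : ∀ i, 0 ≤ p i) (hq : ∀ j, 0 ≤ q j) (hq1 : ∀ j ∈ J, q j < 1) :
    ∃ θ : ℝ, 0 < θ ∧ θ ≤ 1 ∧
      ((∑ i ∈ I, if θ ≤ p i then (1 : ℝ) else 0) - ∑ j ∈ J, if θ ≤ q j then (1 : ℝ) else 0)
        ≤ ∑ i ∈ I, p i - ∑ j ∈ J, q j := by
  classical
  have hint : ∀ c : ℝ, 0 ≤ c → c ≤ 1 →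
      ∫ θ in (0 : ℝ)..1, (if θ ≤ c then (1 : ℝ) else 0) = c := by
    intro c h0 h1
    have e : ∀ θ : ℝ, (if θ ≤ c then (1 : ℝ) else 0) =
        Set.indicator {x : ℝ | x ≤ c} (fun _ => (1 : ℝ)) θ := by
      intro θ
      by_cases h : θ ≤ c <;> simp [h]
    simp_rw [e]
    rw [intervalIntegral.integral_indicator ⟨h0, h1⟩]
    simp
  have hii : ∀ c : ℝ, IntervalIntegrable (fun θ : ℝ => if θ ≤ c then (1 : ℝ) else 0)
      MeasureTheory.volume 0 1 := by
    intro c
    have hanti : AntitoneOn (fun θ : ℝ => if θ ≤ c then (1 : ℝ) else 0) (Set.uIcc 0 1) := by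
      intro a _ b _ hab
      dsimp only
      split_ifs with h1 h2
      · exact le_rfl
      · exact absurd (hab.trans h1) h2
      · exact zero_le_one
      · exact le_rfl
    exact hanti.intervalIntegrable
  have hsum1 : ∀ (s : Finset ι) (c : ι → ℝ), IntervalIntegrable
      (fun θ : ℝ => ∑ i ∈ s, if θ ≤ c i then (1 : ℝ) else 0) MeasureTheory.volume 0 1 := by
    intro s c
    have hanti : AntitoneOn (fun θ : ℝ => ∑ i ∈ s, if θ ≤ c i then (1 : ℝ) else 0)
        (Set.uIcc 0 1) := by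
      intro a _ b _ hab
      refine Finset.sum_le_sum fun i _ => ?_
      split_ifs with h1 h2
      · exact le_rfl
      · exact absurd (hab.trans h1) h2
      · exact zero_le_one
      · exact le_rfl
    exact hanti.intervalIntegrable
  have hsum2 : ∀ (s : Finset κ) (c : κ → ℝ), IntervalIntegrable
      (fun θ : ℝ => ∑ i ∈ s, if θ ≤ c i then (1 : ℝ) else 0) MeasureTheory.volume 0 1 := by
    intro s c
    have hanti : AntitoneOn (fun θ : ℝ => ∑ i ∈ s, if θ ≤ c i then (1 : ℝ) else 0)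
        (Set.uIcc 0 1) := by
      intro a _ b _ hab
      refine Finset.sum_le_sum fun i _ => ?_
      split_ifs with h1 h2
      · exact le_rfl
      · exact absurd (hab.trans h1) h2
      · exact zero_le_one
      · exact le_rfl
    exact hanti.intervalIntegrable
  by_contra hcon
  push Not at hcon
  set C := ∑ i ∈ I, p i - ∑ j ∈ J, q j with hC
  set F : ℝ → ℝ := fun θ => (∑ i ∈ I, if θ ≤ min (p i) 1 then (1 : ℝ) else 0) -
    ∑ j ∈ J, if θ ≤ q j then (1 : ℝ) else 0 with hF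
  have hFC : ∀ θ : ℝ, 0 < θ → θ ≤ 1 → C < F θ := by
    intro θ h0 h1
    have := hcon θ h0 h1
    simp only [hF]
    have e : ∀ i, (θ ≤ min (p i) 1) ↔ θ ≤ p i := fun i => by
      rw [le_min_iff]
      exact ⟨fun h => h.1, fun h => ⟨h, h1⟩⟩
    simp only [e]
    exact this
  have hFi : IntervalIntegrable F MeasureTheory.volume 0 1 := by
    simp only [hF]
    exact IntervalIntegrable.sub (hsum1 I fun i => min (p i) 1) (hsum2 J q)
  have hval : ∫ θ in (0 : ℝ)..1, F θ = ∑ i ∈ I, min (p i) 1 - ∑ j ∈ J, q j := by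
    simp only [hF]
    rw [intervalIntegral.integral_sub, intervalIntegral.integral_finsetSum,
      intervalIntegral.integral_finsetSum]
    · congr 1
      · exact Finset.sum_congr rfl fun i _ =>
          hint _ (le_min (hp i) zero_le_one) (min_le_right _ _)
      · exact Finset.sum_congr rfl fun j hj => hint _ (hq j) (hq1 j hj).le
    · exact fun j _ => hii _
    · exact fun j _ => hii _
    · exact hsum1 I fun i => min (p i) 1
    · exact hsum2 J q
  have hle : ∫ θ in (0 : ℝ)..1, F θ ≤ C := by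
    rw [hval, hC]
    have : ∑ i ∈ I, min (p i) 1 ≤ ∑ i ∈ I, p i := Finset.sum_le_sum fun i _ => min_le_left _ _
    linarith
  have hlt : 0 < ∫ θ in (0 : ℝ)..1, (F θ - C) :=
    intervalIntegral.intervalIntegral_pos_of_pos_on
      (hFi.sub intervalIntegrable_const)
      (fun θ hθ => by have := hFC θ hθ.1 hθ.2.le; linarith) zero_lt_one
  rw [intervalIntegral.integral_sub hFi intervalIntegrable_const] at hlt
  simp at hlt
  linarith

open Classical in
/-- The indicator of a proposition. -/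
noncomputable def ind (p : Prop) : ℝ := if p then 1 else 0

theorem ind_true {p : Prop} (h : p) : ind p = 1 := by
  unfold ind
  rw [if_pos h]

theorem ind_false {p : Prop} (h : ¬ p) : ind p = 0 := by
  unfold ind
  rw [if_neg h]

theorem ind_nonneg (p : Prop) : 0 ≤ ind p := by
  by_cases h : p
  · rw [ind_true h]; exact zero_le_one
  · rw [ind_false h]

theorem ind_mono {p q : Prop} (h : p → q) : ind p ≤ ind q := by
  by_cases hp : p
  · rw [ind_true hp, ind_true (h hp)]
  · rw [ind_false hp]; exact ind_nonneg q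

theorem ind_congr {p q : Prop} (h : p ↔ q) : ind p = ind q :=
  le_antisymm (ind_mono h.1) (ind_mono h.2)

variable {V : Type*} [Fintype V]

theorem sum_load {R : V → V → Prop} {f : V → V → ℝ} (h : Bal R f) (O : Finset V)
    (hO : ∀ b u v, R b u → u ∈ O → R b v → 0 < f b v → v ∈ O) :
    ∑ u ∈ O, load f u = ∑ b, ind (∃ u ∈ O, R b u) := by
  unfold load
  rw [Finset.sum_comm]
  refine Finset.sum_congr rfl fun b _ => ?_
  by_cases hb : ∃ u ∈ O, R b u
  · rw [ind_true hb]
    obtain ⟨u, hu, hR⟩ := hb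
    rw [← h.mass b ⟨u, hR⟩]
    refine Finset.sum_subset (Finset.subset_univ _) fun v _ hv => ?_
    by_contra hne
    have hpos : 0 < f b v := lt_of_le_of_ne (h.nonneg b v) (Ne.symm hne)
    have hRv : R b v := by
      by_contra hR'
      exact hne (h.supp b v hR')
    exact hv (hO b u v hR hu hRv hpos)
  · rw [ind_false hb]
    exact Finset.sum_eq_zero fun u hu => h.supp b u fun hR => hb ⟨u, hu, hR⟩

/-- The pure inequality. -/
theorem pure_ineq (A S T : V → V → Prop) :
    ∃ ga gb : V → V → Prop,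
      (∀ z u, (∃ b, S z b ∧ A b u) → (∃ x, A x z ∧ T x u) → ga z u ∨ gb z u) ∧
      (∀ z u, ga z u → (∃ b, S z b ∧ A b u) ∧ ∃ x, A x z ∧ T x u) ∧
      (∀ z u, gb z u → (∃ b, S z b ∧ A b u) ∧ ∃ x, A x z ∧ T x u) ∧
      (∑ x, ∑ u, ind (T x u ∧ ∃ z, A x z ∧ ga z u)) +
        (∑ z, ∑ b, ind (S z b ∧ ∃ u, A b u ∧ gb z u)) ≤
      (∑ x, ∑ b, ind ((∃ z, A x z ∧ S z b) ∧ ∃ u, A b u ∧ T x u)) +
        ∑ z, ∑ u, ind (ga z u ∧ gb z u) := by
  classical
  -- the two families of balanced transports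
  set R : V → V → V → Prop := fun z b u => S z b ∧ A b u ∧ ∃ x, A x z ∧ T x u with hR
  set R' : V → V → V → Prop := fun x b u => T x u ∧ A b u ∧ ∃ z, A x z ∧ S z b with hR'
  choose f hf using fun z => exists_bal (R z)
  choose f' hf' using fun x => exists_bal (R' x)
  have hmono : ∀ x z u, A x z → T x u → load (f z) u ≤ load (f' x) u := by
    intro x z u hxz hxu
    refine (hf z).mono (hf' x) (T x) ?_ ?_ ?_ u hxu
    · rintro b u ⟨h1, h2, _⟩ h4
      exact ⟨h4, h2, z, hxz, h1⟩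
    · rintro b u ⟨h1, _, _⟩
      exact h1
    · rintro b u v ⟨h1, _, _⟩ ⟨h4, h5, _⟩
      exact ⟨h1, h5, x, hxz, h4⟩
  set gam : V → V → Prop := fun z u => (∃ b, S z b ∧ A b u) ∧ ∃ x, A x z ∧ T x u with hgam
  set I : Finset (V × V) := Finset.univ.filter fun p => T p.1 p.2 with hI
  set J : Finset (V × V) := Finset.univ.filter fun p => gam p.1 p.2 ∧ load (f p.1) p.2 < 1 with hJ
  obtain ⟨θ, hθ0, hθ1, hθ⟩ := threshold I J (fun p => load (f' p.1) p.2)
    (fun p => load (f p.1) p.2) (fun p => (hf' p.1).load_nonneg _)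
    (fun p => (hf p.1).load_nonneg _) (fun p hp => (Finset.mem_filter.1 hp).2.2)
  have hsI : ∑ p ∈ I, load (f' p.1) p.2 =
      ∑ x, ∑ b, ind ((∃ z, A x z ∧ S z b) ∧ ∃ u, A b u ∧ T x u) := by
    rw [hI, Finset.sum_filter, Fintype.sum_prod_type]
    refine Finset.sum_congr rfl fun x _ => ?_
    rw [← Finset.sum_filter]
    rw [sum_load (hf' x) (Finset.univ.filter fun u => T x u) (by
      rintro b u v _ _ ⟨h, _, _⟩ _
      simp [h])]
    refine Finset.sum_congr rfl fun b _ => ind_congr ?_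
    simp only [Finset.mem_filter, Finset.mem_univ, true_and, hR']
    constructor
    · rintro ⟨u, h1, _, h3, h4⟩
      exact ⟨h4, u, h3, h1⟩
    · rintro ⟨h4, u, h3, h1⟩
      exact ⟨u, h1, h1, h3, h4⟩
  have hsJ : ∑ p ∈ J, load (f p.1) p.2 =
      ∑ z, ∑ b, ind (S z b ∧ ∃ u, A b u ∧ (gam z u ∧ load (f z) u < 1)) := by
    rw [hJ, Finset.sum_filter, Fintype.sum_prod_type]
    refine Finset.sum_congr rfl fun z _ => ?_
    rw [← Finset.sum_filter]
    rw [sum_load (hf z) (Finset.univ.filter fun u => gam z u ∧ load (f z) u < 1) (by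
      rintro b u v h1 h2 ⟨h3, h4, h5⟩ h6
      simp only [Finset.mem_filter, Finset.mem_univ, true_and] at h2 ⊢
      exact ⟨⟨⟨b, h3, h4⟩, h5⟩, lt_of_le_of_lt ((hf z).bal b v u h6 h1) h2.2⟩)]
    refine Finset.sum_congr rfl fun b _ => ind_congr ?_
    simp only [Finset.mem_filter, Finset.mem_univ, true_and, hR]
    constructor
    · rintro ⟨u, h1, h2, h3, h4⟩
      exact ⟨h2, u, h3, h1⟩
    · rintro ⟨h2, u, h3, h1⟩
      exact ⟨u, h1, h2, h3, h1.1.2⟩
  refine ⟨fun z u => gam z u ∧ θ ≤ load (f z) u, fun z u => gam z u ∧ load (f z) u < 1,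
    ?_, ?_, ?_, ?_⟩
  · intro z u h1 h2
    rcases le_or_gt 1 (load (f z) u) with h | h
    · exact Or.inl ⟨⟨h1, h2⟩, hθ1.trans h⟩
    · exact Or.inr ⟨⟨h1, h2⟩, h⟩
  · exact fun z u h => h.1
  · exact fun z u h => h.1
  · beta_reduce
    rw [← hsJ, ← hsI]
    have h1 : (∑ x, ∑ u, ind (T x u ∧ ∃ z, A x z ∧ (gam z u ∧ θ ≤ load (f z) u)))
        ≤ ∑ p ∈ I, if θ ≤ load (f' p.1) p.2 then (1 : ℝ) else 0 := by
      rw [hI, Finset.sum_filter, Fintype.sum_prod_type]
      refine Finset.sum_le_sum fun x _ => Finset.sum_le_sum fun u _ => ?_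
      by_cases h2 : T x u ∧ ∃ z, A x z ∧ (gam z u ∧ θ ≤ load (f z) u)
      · rw [ind_true h2]
        obtain ⟨h3, z, h4, _, h6⟩ := h2
        rw [if_pos h3, if_pos (h6.trans (hmono x z u h4 h3))]
      · rw [ind_false h2]
        split_ifs <;> norm_num
    have h2 : (∑ z, ∑ u, ind ((gam z u ∧ θ ≤ load (f z) u) ∧ (gam z u ∧ load (f z) u < 1)))
        = ∑ p ∈ J, if θ ≤ load (f p.1) p.2 then (1 : ℝ) else 0 := by
      rw [hJ, Finset.sum_filter, Fintype.sum_prod_type]
      refine Finset.sum_congr rfl fun z _ => Finset.sum_congr rfl fun u _ => ?_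
      by_cases h3 : gam z u ∧ load (f z) u < 1
      · rw [if_pos h3]
        by_cases h4 : θ ≤ load (f z) u
        · rw [if_pos h4, ind_true ⟨⟨h3.1, h4⟩, h3⟩]
        · rw [if_neg h4, ind_false fun h => h4 h.1.2]
      · rw [if_neg h3, ind_false fun h => h3 h.2]
    rw [h2]
    linarith

end Vale.Agent.P038.H87
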