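import Mathlib

/-!
# Balanced transport
-/

namespace Vale.Agent.P038.H87

open Finset

variable {V : Type*} [Fintype V]

/-- The load of `u`. -/
noncomputable def load (f : V → V → ℝ) (u : V) : ℝ := ∑ b, f b u

/-- `f` is a balanced transport along the relation `R`. -/
structure Bal (R : V → V → Prop) (f : V → V → ℝ) : Prop where
  nonneg : ∀ b u, 0 ≤ f b u
  supp : ∀ b u, ¬ R b u → f b u = 0
  mass : ∀ b, (∃ u, R b u) → ∑ u, f b u = 1
  bal : ∀ b u v, 0 < f b u → R b v → load f u ≤ load f v

omit [Fintype V] in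
theorem exists_pos_of_sum_pos {s : Finset V} {f : V → ℝ} (h : 0 < ∑ i ∈ s, f i) :
    ∃ i ∈ s, 0 < f i := by
  by_contra hcon
  push Not at hcon
  exact absurd h (not_lt.2 (Finset.sum_nonpos hcon))

theorem exists_bal (R : V → V → Prop) : ∃ f, Bal R f := by
  classical
  set K : Set (V → V → ℝ) := {f | (∀ b u, 0 ≤ f b u) ∧ (∀ b u, ¬ R b u → f b u = 0) ∧
    ∀ b, (∃ u, R b u) → ∑ u, f b u = 1} with hK
  have hcl : IsClosed K := by
    have e : K = (⋂ b, ⋂ u, {f : V → V → ℝ | 0 ≤ f b u}) ∩
        ((⋂ b, ⋂ u, ⋂ (_ : ¬ R b u), {f : V → V → ℝ | f b u = 0}) ∩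
        ⋂ b, ⋂ (_ : ∃ u, R b u), {f : V → V → ℝ | ∑ u, f b u = 1}) := by
      ext f
      simp [hK]
    rw [e]
    refine IsClosed.inter ?_ (IsClosed.inter ?_ ?_)
    · exact isClosed_iInter fun b => isClosed_iInter fun u =>
        isClosed_le continuous_const (by fun_prop)
    · exact isClosed_iInter fun b => isClosed_iInter fun u => isClosed_iInter fun _ =>
        isClosed_eq (by fun_prop) continuous_const
    · exact isClosed_iInter fun b => isClosed_iInter fun _ =>
        isClosed_eq (by fun_prop) continuous_const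
  have hsub : K ⊆ Set.pi Set.univ fun _ : V => Set.pi Set.univ fun _ : V => Set.Icc (0 : ℝ) 1 := by
    rintro f ⟨h1, h2, h3⟩ b _ u _
    refine ⟨h1 b u, ?_⟩
    by_cases hR : R b u
    · rw [← h3 b ⟨u, hR⟩]
      exact Finset.single_le_sum (fun i _ => h1 b i) (Finset.mem_univ u)
    · rw [h2 b u hR]
      exact zero_le_one
  have hcpt : IsCompact K :=
    IsCompact.of_isClosed_subset
      (isCompact_univ_pi fun _ => isCompact_univ_pi fun _ => isCompact_Icc) hcl hsub
  have hne : K.Nonempty := by
    refine ⟨fun b u => if h : ∃ v, R b v then (if u = h.choose then 1 else 0) else 0, ?_, ?_, ?_⟩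
    · intro b u
      dsimp only
      split_ifs <;> norm_num
    · intro b u hR
      dsimp only
      split_ifs with h1 h2
      · exact absurd (h2 ▸ h1.choose_spec) hR
      · rfl
      · rfl
    · intro b hb
      dsimp only
      rw [Finset.sum_congr rfl fun u _ => dif_pos hb]
      simp
  obtain ⟨f, hf, hmin⟩ := hcpt.exists_isMinOn (f := fun f : V → V → ℝ => ∑ u, load f u ^ 2) hne
    (by unfold load; fun_prop)
  obtain ⟨h1, h2, h3⟩ := hf
  refine ⟨f, h1, h2, h3, ?_⟩
  intro b u v hfu hRv
  by_contra hlt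
  push Not at hlt
  have huv : u ≠ v := by rintro rfl; exact lt_irrefl _ hlt
  set ε := min (f b u) ((load f u - load f v) / 2) with hε
  have hε0 : 0 < ε := lt_min hfu (by linarith)
  have hε1 : ε ≤ f b u := min_le_left _ _
  have hε2 : ε ≤ (load f u - load f v) / 2 := min_le_right _ _
  set f' : V → V → ℝ := fun b' u' =>
    f b' u' + if b' = b then (if u' = v then ε else 0) - (if u' = u then ε else 0) else 0 with hf'
  have hload : ∀ u', load f' u' = load f u' + ((if u' = v then ε else 0) - if u' = u then ε else 0) := by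
    intro u'
    unfold load
    simp only [hf', Finset.sum_add_distrib, Finset.sum_ite_eq', Finset.mem_univ, if_true]
  have hf'K : f' ∈ K := by
    refine ⟨?_, ?_, ?_⟩
    · intro b' u'
      simp only [hf']
      have := h1 b' u'
      split_ifs with e1 e2 e3 e3
      · linarith
      · linarith
      · subst e1 e3; linarith
      · linarith
      · linarith
    · intro b' u' hR
      simp only [hf']
      rw [h2 b' u' hR]
      split_ifs with e1 e2 e3 e3
      · ring
      · exact absurd (by rw [e1, e2]; exact hRv) hR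
      · subst e1 e3
        rw [h2 _ _ hR] at hfu
        exact absurd hfu (lt_irrefl _)
      · ring
      · ring
    · intro b' hb'
      simp only [hf', Finset.sum_add_distrib, h3 b' hb']
      by_cases e1 : b' = b
      · simp [e1, Finset.sum_sub_distrib]
      · simp [e1]
  have hm : ∑ u', load f u' ^ 2 ≤ ∑ u', load f' u' ^ 2 := hmin hf'K
  have hdiff : ∑ u', load f' u' ^ 2 - ∑ u', load f u' ^ 2 =
      2 * ε * (load f v - load f u) + 2 * ε ^ 2 := by
    rw [← Finset.sum_sub_distrib]
    have e : ∀ u', load f' u' ^ 2 - load f u' ^ 2 =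
        (if u' = v then 2 * ε * load f v + ε ^ 2 else 0) +
          (if u' = u then - (2 * ε * load f u) + ε ^ 2 else 0) := by
      intro u'
      rw [hload u']
      by_cases e1 : u' = v
      · have e2 : u' ≠ u := fun h => huv (h.symm.trans e1)
        subst e1
        simp [e2]
        ring
      · by_cases e2 : u' = u
        · subst e2
          simp [e1]
          ring
        · simp [e1, e2]
    rw [Finset.sum_congr rfl fun u' _ => e u', Finset.sum_add_distrib]
    simp only [Finset.sum_ite_eq', Finset.mem_univ, if_true]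
    ring
  nlinarith [mul_pos hε0 hε0]

theorem Bal.load_nonneg {R : V → V → Prop} {f : V → V → ℝ} (h : Bal R f) (u : V) :
    0 ≤ load f u :=
  Finset.sum_nonneg fun b _ => h.nonneg b u

/-- Monotonicity. -/
theorem Bal.mono {R1 R2 : V → V → Prop} {f1 f2 : V → V → ℝ} (h1 : Bal R1 f1) (h2 : Bal R2 f2)
    (T : V → Prop) (ha : ∀ b u, R1 b u → T u → R2 b u) (hb : ∀ b u, R2 b u → T u)
    (hc : ∀ b u v, R1 b u → R2 b v → R1 b v) (u : V) (hu : T u) :
    load f1 u ≤ load f2 u := by
  classical
  by_contra hcon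
  push Not at hcon
  set O : Finset V := Finset.univ.filter fun u => T u ∧ load f2 u < load f1 u with hO
  have huO : u ∈ O := by simp [hO, hu, hcon]
  have hlt : ∑ b, ∑ u ∈ O, f2 b u < ∑ b, ∑ u ∈ O, f1 b u := by
    rw [Finset.sum_comm, Finset.sum_comm (f := fun b u => f1 b u)]
    exact Finset.sum_lt_sum_of_nonempty ⟨u, huO⟩ fun i hi => (Finset.mem_filter.1 hi).2.2
  obtain ⟨b, -, hb1⟩ := Finset.exists_lt_of_sum_lt hlt
  -- f1 sends something from b to O
  have hpos1 : 0 < ∑ u ∈ O, f1 b u :=
    lt_of_le_of_lt (Finset.sum_nonneg fun i _ => h2.nonneg b i) hb1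
  obtain ⟨u1, hu1, hfu1⟩ := exists_pos_of_sum_pos hpos1
  obtain ⟨hTu1, hlu1⟩ := (Finset.mem_filter.1 hu1).2
  have hR1 : R1 b u1 := by
    by_contra hR
    rw [h1.supp b u1 hR] at hfu1
    exact lt_irrefl _ hfu1
  have hR2 : R2 b u1 := ha b u1 hR1 hTu1
  have hmass1 : ∑ u ∈ O, f1 b u ≤ 1 := by
    rw [← h1.mass b ⟨u1, hR1⟩]
    exact Finset.sum_le_sum_of_subset_of_nonneg (Finset.subset_univ _) fun i _ _ => h1.nonneg b i
  have hmass2 : 0 < ∑ u ∈ Oᶜ, f2 b u := by
    have e := Finset.sum_add_sum_compl O (fun u => f2 b u)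
    rw [h2.mass b ⟨u1, hR2⟩] at e
    linarith
  obtain ⟨v, hv, hfv⟩ := exists_pos_of_sum_pos hmass2
  have hRv : R2 b v := by
    by_contra hR
    rw [h2.supp b v hR] at hfv
    exact lt_irrefl _ hfv
  have hTv : T v := hb b v hRv
  have hvO : load f1 v ≤ load f2 v := by
    by_contra h
    push Not at h
    exact (Finset.mem_compl.1 hv) (by simp [hO, hTv, h])
  have a1 := h1.bal b u1 v hfu1 (hc b u1 v hR1 hRv)
  have a2 := h2.bal b v u1 hfv hR2
  linarith

end Vale.Agent.P038.H87
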